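import Mathlib

/-!
# P040, odd layer, the leaf on the base curve: the value in the limit of infinite twist

`V R v` is the value of the framed curve `R`.  One full twist changes it by `c` up to a monotone
error; the values are bounded and lie in a lattice, so the corrected values are eventually
constant.  `Lim V t c R v` is this constant.
-/

set_option autoImplicit false

namespace Vale.Agent.P040.H303

variable {G : Type*} [Group G]

/-- the curve `R` twisted `k` times around the leaf with loop `t` -/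
def tws (t : G) (k : ℕ) (R : G) : G := (t ^ k)⁻¹ * R * t ^ k

@[simp] theorem tws_zero (t R : G) : tws t 0 R = R := by simp [tws]

theorem tws_succ (t : G) (k : ℕ) (R : G) : tws t (k + 1) R = t⁻¹ * tws t k R * t := by
  unfold tws
  rw [pow_succ]
  group

theorem tws_succ' (t : G) (k : ℕ) (R : G) : tws t (k + 1) R = tws t k (t⁻¹ * R * t) := by
  unfold tws
  rw [pow_succ']
  group

/-- the limit value -/
def Lim (V : G → ℝ → Prop) (t : G) (c : ℝ) (R : G) (v : ℝ) : Prop :=
  ∃ K : ℕ, ∀ k : ℕ, K ≤ k → V (tws t k R) (v + k * c)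

variable {V : G → ℝ → Prop} {t : G} {c : ℝ}

theorem Lim.uniq (hu : ∀ {R v v'}, V R v → V R v' → v = v') {R : G} {v v' : ℝ}
    (h1 : Lim V t c R v) (h2 : Lim V t c R v') : v = v' := by
  obtain ⟨K, hK⟩ := h1
  obtain ⟨K', hK'⟩ := h2
  have := hu (hK _ (le_max_left K K')) (hK' _ (le_max_right K K'))
  linarith

theorem Lim.twist {R : G} {v : ℝ} (h : Lim V t c R v) : Lim V t c (t⁻¹ * R * t) (v + c) := by
  obtain ⟨K, hK⟩ := h
  refine ⟨K, fun k hk => ?_⟩
  have := hK (k + 1) (by omega)
  rw [tws_succ'] at this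
  push_cast at this
  have e : v + c + k * c = v + (k + 1) * c := by ring
  rw [e]
  exact this

/-- the values lie in a lattice -/
theorem Lim.lat {κ d : ℝ} (hl : ∀ {R v}, V R v → ∃ n : ℤ, v = κ + n * d)
    (hc : ∃ n : ℤ, c = n * d) {R : G} {v : ℝ} (h : Lim V t c R v) : ∃ n : ℤ, v = κ + n * d := by
  obtain ⟨K, hK⟩ := h
  obtain ⟨n, hn⟩ := hl (hK K le_rfl)
  obtain ⟨m, hm⟩ := hc
  refine ⟨n - K * m, ?_⟩
  push_cast
  rw [hm] at hn
  linarith

/-- a monotone bounded lattice valued sequence is eventually constant -/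
theorem eventually_const {u : ℕ → ℤ} (hm : Monotone u) {B : ℤ} (hB : ∀ k, u k ≤ B) :
    ∃ K, ∀ k, K ≤ k → u k = u K := by
  by_contra hcon
  push Not at hcon
  have key : ∀ n : ℕ, ∃ k, u 0 + n ≤ u k := by
    intro n
    induction n with
    | zero => exact ⟨0, by simp⟩
    | succ n ih =>
      obtain ⟨k, hk⟩ := ih
      obtain ⟨k', hk', hne⟩ := hcon k
      have h1 := hm hk'
      refine ⟨k', ?_⟩
      push_cast
      have : u k < u k' := lt_of_le_of_ne h1 (Ne.symm hne)
      omega
  obtain ⟨k, hk⟩ := key (B - u 0 + 1).toNat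
  have h1 := hB k
  have h2 : B - u 0 + 1 ≤ ((B - u 0 + 1).toNat : ℤ) := Int.self_le_toNat _
  omega

/-- **Existence of the limit.** -/
theorem Lim.exists {κ d : ℝ} (hd : 0 < d)
    (hl : ∀ {R v}, V R v → ∃ n : ℤ, v = κ + n * d) (hc : ∃ n : ℤ, c = n * d)
    {σ : ℝ} (hσ : σ = 1 ∨ σ = -1)
    (hstep : ∀ {R v}, V R v → ∃ v', V (t⁻¹ * R * t) v' ∧ 0 ≤ σ * (v' - (v + c)))
    (hu : ∀ {R v v'}, V R v → V R v' → v = v')
    {R : G} {v b : ℝ} (h : V R v)
    (hb : ∀ k v', V (tws t k R) v' → σ * (v' - (v + k * c)) ≤ b) :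
    ∃ w, Lim V t c R w ∧ 0 ≤ σ * (w - v) ∧ σ * (w - v) ≤ b := by
  have h0 : ∀ k, ∃ v', V (tws t k R) v' := by
    intro k
    induction k with
    | zero => exact ⟨v, by simpa using h⟩
    | succ k ih =>
      obtain ⟨v', hv'⟩ := ih
      obtain ⟨v'', hv'', -⟩ := hstep hv'
      exact ⟨v'', by rw [tws_succ]; exact hv''⟩
  choose f hf using h0
  obtain ⟨m, hm⟩ := hc
  choose n hn using fun k => hl (hf k)
  -- corrected values, in units of the lattice
  set u : ℕ → ℤ := fun k => n k - k * m with hu'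
  have hfu : ∀ k, f k = κ + (u k + k * m) * d := by
    intro k
    rw [hn k, hu']
    push_cast
    ring
  have hs : ∀ k, 0 ≤ σ * (f (k + 1) - (f k + c)) := by
    intro k
    obtain ⟨v', hv', h1⟩ := hstep (hf k)
    rw [← tws_succ] at hv'
    rwa [hu hv' (hf (k + 1))] at h1
  have hs' : ∀ k, 0 ≤ σ * ((u (k + 1) : ℝ) - u k) := by
    intro k
    have h1 := hs k
    rw [hfu, hfu, hm] at h1
    push_cast at h1
    have h2 : σ * (κ + (↑(u (k + 1)) + (↑k + 1) * ↑m) * d - (κ + (↑(u k) + ↑k * ↑m) * d + ↑m * d)) =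
        (σ * ((u (k + 1) : ℝ) - u k)) * d := by ring
    rw [h2] at h1
    exact nonneg_of_mul_nonneg_left h1 hd
  have hf0 : f 0 = v := by
    have := hf 0
    rw [tws_zero] at this
    exact hu this h
  have hbd : ∀ k, σ * ((u k : ℝ) - u 0) * d ≤ b := by
    intro k
    have h1 := hb k _ (hf k)
    rw [← hf0, hfu, hfu, hm] at h1
    have h2 : σ * (κ + (↑(u k) + ↑k * ↑m) * d - (κ + (↑(u 0) + ((0 : ℕ) : ℝ) * ↑m) * d + ↑k * (↑m * d))) =
        σ * ((u k : ℝ) - u 0) * d := by push_cast; ring
    rwa [h2] at h1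
  obtain ⟨K, hK⟩ : ∃ K, ∀ k, K ≤ k → u k = u K := by
    rcases hσ with rfl | rfl
    · refine eventually_const (B := u 0 + ⌈b / d⌉) (monotone_nat_of_le_succ fun k => ?_)
        fun k => ?_
      · have := hs' k
        rw [one_mul, sub_nonneg] at this
        exact_mod_cast this
      · have h1 := hbd k
        rw [one_mul, ← le_div_iff₀ hd] at h1
        have h2 := h1.trans (Int.le_ceil _)
        have h3 : (u k : ℝ) ≤ ((u 0 + ⌈b / d⌉ : ℤ) : ℝ) := by push_cast; linarith
        exact_mod_cast h3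
    · obtain ⟨K, hK⟩ := eventually_const (u := fun k => - u k) (B := - u 0 + ⌈b / d⌉)
        (monotone_nat_of_le_succ fun k => by
          have := hs' k
          have h1 : (u (k + 1) : ℝ) ≤ u k := by linarith
          have h2 : u (k + 1) ≤ u k := by exact_mod_cast h1
          omega) fun k => by
          have h1 := hbd k
          rw [← le_div_iff₀ hd] at h1
          have h2 := h1.trans (Int.le_ceil _)
          have h3 : ((- u k : ℤ) : ℝ) ≤ ((- u 0 + ⌈b / d⌉ : ℤ) : ℝ) := by push_cast; linarith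
          exact_mod_cast h3
      exact ⟨K, fun k hk => by have := hK k hk; omega⟩
  refine ⟨f K - K * c, ⟨K, fun k hk => ?_⟩, ?_, ?_⟩
  · have e : f K - K * c + k * c = f k := by
      rw [hfu k, hfu K, hK k hk, hm]
      ring
    rw [e]
    exact hf k
  · have e : f K - K * c - v = ((u K : ℝ) - u 0) * d := by
      rw [← hf0, hfu K, hfu 0, hm]
      push_cast
      ring
    rw [e, ← mul_assoc]
    refine mul_nonneg ?_ hd.le
    have : ∀ k : ℕ, 0 ≤ σ * ((u k : ℝ) - u 0) := by
      intro k
      induction k with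
      | zero => simp
      | succ k ih =>
        have h1 := hs' k
        have h2 : σ * ((u (k + 1) : ℝ) - u 0) = σ * ((u (k + 1) : ℝ) - u k) +
            σ * ((u k : ℝ) - u 0) := by ring
        rw [h2]
        linarith
    exact this K
  · have e : σ * (f K - K * c - v) = σ * ((u K : ℝ) - u 0) * d := by
      rw [← hf0, hfu K, hfu 0, hm]
      push_cast
      ring
    rw [e]
    exact hbd K

end Vale.Agent.P040.H303
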