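import Vale.Agent.P040.H303.Step
import Vale.Agent.P040.H242.OInst

/-!
# P040, both parts odd: row (W1), the twist at the leaf `w`
-/

set_option autoImplicit false

namespace Vale.Agent.P040.H303

open P040H251 H682 H242O

variable {h : ℕ}

/-- the twist at any leaf, with an error in `[-1/2, 0]` -/
theorem oStep' (P : OData h) (T : VApi ℝ) {z : Fin (2 * h + 1)} {R : FreeGroup ℕ} {v : ℝ}
    (hv : P.ValT T z R v) :
    ∃ v', P.ValT T z ((Pst.sl P.G0 z)⁻¹ * R * Pst.sl P.G0 z) v' ∧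
      0 ≤ (-1) * (v' - (v + (-1) * ((h : ℝ) - 1 / 2))) ∧
      (-1) * (v' - (v + (-1) * ((h : ℝ) - 1 / 2))) ≤ 1 / 2 :=
  VT.step (P := P) (T := T) hv

/-- **(W1)** -/
theorem oStep (P : OData h) (T : VApi ℝ) : OStep P T (-1) := by
  intro R v hv
  obtain ⟨v', h1, h2, -⟩ := oStep' P T hv
  exact ⟨v', h1, h2⟩

end Vale.Agent.P040.H303
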