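import Vale.Agent.P040.H303.Twist
import Vale.Agent.P040.H251.Plus2
import Vale.Agent.P040.H682.OData
import Vale.Agent.P040.H105.Tup

/-!
# P040, odd layer: the full twist at any leaf, up to a monotone error

`step`: if the leaf `z` is twisted, the value changes by `-(h - 1/2)` up to an error in
`[-1/2, 0]`.  (This is used at the leaf on the base curve, at the other leaves the error is zero.)
-/

set_option autoImplicit false

namespace Vale.Agent.P040.H303

open P040H251 Vale.Agent.P040.H906 H682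

variable {h : ℕ} (P : OData h)

/-- the curve with the leaf reached from below -/
structure Low (T : VApi ℝ) (z : Fin (2 * h + 1)) (R : FreeGroup ℕ) (v : ℝ) (t r l : ℝ)
    (M : List ℝ) (E : ℝ → ℝ) : Prop where
  crv : Crv (P.DC z t) true (r :: l :: M) E
  lz : l < P.pos z
  zr : P.pos z < r
  rt : r < t
  emp : ∀ w ∈ M, ¬ (l < w ∧ w ≤ t)
  rkl : P.rk l = P.rk (P.pos z)
  rkt : P.rk t = P.rk (P.pos z) + 1
  word : Pst.wd P.G0 true (l :: M) = R * FreeGroup.of (P.G0.lt z)
  val : v = T.val true (r :: l :: M) E - E r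

/-- the values (the same as `ValT`) -/
def VT (T : VApi ℝ) (z : Fin (2 * h + 1)) (R : FreeGroup ℕ) (v : ℝ) : Prop :=
  ∃ (t r l : ℝ) (L : List ℝ) (E : ℝ → ℝ), Crv (P.DC z t) true (r :: L) E ∧ P.Fat z t r l L ∧
    Pst.wd P.G0 true L = R * FreeGroup.of (P.G0.lt z) ∧ v = T.val true (r :: L) E - E r

variable {P}

theorem gap_lt {z : Fin (2 * h + 1)} {x : ℝ} (hx : P.rk x = P.rk (P.pos z)) :
    P.G0.gap x = P.G0.lt z := by
  show P.rk x % (2 * h + 1) = P.rk (P.pos z)
  rw [hx, Nat.mod_eq_of_lt (P.rk_pos_lt z)]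

theorem gap_rt {z : Fin (2 * h + 1)} {x : ℝ} (hx : P.rk x = P.rk (P.pos z) + 1) :
    P.G0.gap x = P.G0.rt z := by
  show P.rk x % (2 * h + 1) = (P.rk (P.pos z) + 1) % (2 * h + 1)
  rw [hx]

/-- **Half turn.** Every value has a curve with the leaf reached from below. -/
theorem VT.low {T : VApi ℝ} {z : Fin (2 * h + 1)} {R : FreeGroup ℕ} {v : ℝ} (hv : VT P T z R v) :
    ∃ t r l M E, Low P T z R v t r l M E := by
  obtain ⟨t, r, l, L, E, hC, hF, hw, hv⟩ := hv
  rcases hF.fl with hfl | hfl
  · obtain ⟨M, rfl⟩ : ∃ M, L = l :: M := by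
      cases L with
      | nil => simp at hfl
      | cons a M => simp at hfl; exact ⟨M, by rw [hfl]⟩
    exact ⟨t, r, l, M, E, hC, hF.lz, hF.zr, hF.rt, fun w hw' => hF.emp w (by simp [hw']), hF.rkl,
      hF.rkt, hw, hv⟩
  · obtain ⟨Q, B, rfl⟩ : ∃ Q B, L = Q :: B := by
      cases L with
      | nil => simp at hfl
      | cons a M => exact ⟨a, M, rfl⟩
    obtain ⟨q, hq1, hq2⟩ := exists_between hF.lz
    obtain ⟨n, hn1, hn2⟩ := exists_between hq2
    have hqn : q < n := hn1
    have hrkq : P.rk q = P.rk (P.pos z) :=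
      le_antisymm (P.rk_mono hq2.le) (by rw [← hF.rkl]; exact P.rk_mono hq1.le)
    have hrkn : P.rk n = P.rk (P.pos z) :=
      le_antisymm (P.rk_mono hn2.le) (by rw [← hF.rkl]; exact P.rk_mono (hq1.trans hn1).le)
    have hzt : P.pos z < t := hF.zr.trans hF.rt
    have hemp : ∀ w ∈ ([] : List ℝ) ++ r :: Q :: B, ¬ (l < w ∧ w < r) := by
      intro w hw'
      rw [List.nil_append, List.mem_cons] at hw'
      rcases hw' with rfl | hw'
      · exact fun hh => lt_irrefl _ hh.2
      · exact fun hh => hF.emp w hw' ⟨hh.1, (hh.2.trans hF.rt).le⟩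
    have hnL : n ∉ ([] : List ℝ) ++ r :: Q :: B := fun hh =>
      hemp n hh ⟨hq1.trans hn1, hn2.trans hF.zr⟩
    have hqL : q ∉ ([] : List ℝ) ++ r :: Q :: B := fun hh =>
      hemp q hh ⟨hq1, hq2.trans hF.zr⟩
    have hN : Next (([] : List ℝ) ++ r :: Q :: B) r n q :=
      Or.inl ⟨hqn, hn2.trans hF.zr, fun w hw' hh => hemp w hw' ⟨hq1.trans hh.1, hh.2⟩⟩
    have hlab : (P.DC z t).lab n = (P.DC z t).lab q := by
      show P.rk n + (if t < n then 1 else 0) = P.rk q + (if t < q then 1 else 0)
      rw [hrkn, hrkq, if_neg (hn2.trans hzt).not_gt, if_neg (hq2.trans hzt).not_gt]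
    have hC' : Crv (P.DC z t) true (([] : List ℝ) ++ r :: Q :: B) E := hC
    have h1 := hC'.ins hnL hqL hN hlab
    have h2 := T.ins_val hC' hnL hqL hN hlab
    refine ⟨t, r, n, q :: Q :: B, insE (P.DC z t) (pgk true ([] : List ℝ).length) r n q E, ?_⟩
    refine ⟨h1, hn2, hF.zr, hF.rt, ?_, hrkn, hF.rkt, ?_, ?_⟩
    · intro w hw'
      rw [List.mem_cons] at hw'
      rcases hw' with rfl | hw'
      · exact fun hh => lt_asymm hh.1 hqn
      · exact fun hh => hF.emp w hw' ⟨(hq1.trans hn1).trans hh.1, hh.2⟩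
    · rw [← hw]
      show Pst.cl true (P.G0.gap n) * (Pst.cl (!true) (P.G0.gap q) *
        Pst.wd P.G0 (!!true) (Q :: B)) = Pst.wd P.G0 true (Q :: B)
      rw [gap_lt hrkn, gap_lt hrkq, ← mul_assoc]
      rw [show (!true) = false from rfl,
        show ∀ g : ℕ, Pst.cl true g * Pst.cl false g = 1 from fun g => by simp [Pst.cl], one_mul]
      rfl
    · rw [hv]
      have e1 : insE (P.DC z t) (pgk true ([] : List ℝ).length) r n q E r = E r :=
        insE_eq _ hnL hqL (by simp)
      rw [e1]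
      congr 1
      exact h2.symm

/-! ### the masses of the two halves -/

theorem cc_rk (z : Fin (2 * h + 1)) (b : Bool) :
    P.cc z b (P.rk (P.pos z)) = P.cum b (P.rk (P.pos z)) := by
  unfold OData.cc
  rw [if_pos le_rfl]

theorem cc_rk1 (z : Fin (2 * h + 1)) (b : Bool) :
    P.cc z b (P.rk (P.pos z) + 1) = P.cum b (P.rk (P.pos z)) + P.nin z b := by
  unfold OData.cc
  rw [if_neg (by omega), if_pos rfl]

theorem cc_rk2 (z : Fin (2 * h + 1)) (b : Bool) :
    P.cc z b (P.rk (P.pos z) + 2) = P.cum b (P.rk (P.pos z)) + P.mu z b := by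
  unfold OData.cc
  rw [if_neg (by omega), if_neg (by omega), ← P.cum_succ]
  rfl

/-- **The twisted curve and its value.** -/
theorem Low.twist {T : VApi ℝ} {z : Fin (2 * h + 1)} {R : FreeGroup ℕ} {v t r l : ℝ} {M : List ℝ}
    {E : ℝ → ℝ} (H : Low P T z R v t r l M E) :
    ∃ v', VT P T z ((P.T0 z)⁻¹ * R * P.T0 z) v' ∧
      0 ≤ (-1) * (v' - (v + (-1) * ((h : ℝ) - 1 / 2))) ∧
      (-1) * (v' - (v + (-1) * ((h : ℝ) - 1 / 2))) ≤ 1 / 2 := by
  have hC := H.crv
  have hlr : l < r := H.lz.trans H.zr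
  have hh1 : (1 : ℝ) ≤ h := by exact_mod_cast P.one_le
  -- labels and masses
  have hrkr : P.rk r = P.rk (P.pos z) + 1 := by
    have h1 := (P.rk_lt_iff z r).2 H.zr
    have h2 := P.rk_mono H.rt.le
    have h3 := H.rkt
    omega
  have hlabl : (P.DC z t).lab l = P.rk (P.pos z) := by
    show P.rk l + (if t < l then 1 else 0) = _
    rw [if_neg (hlr.trans H.rt).not_gt, H.rkl, add_zero]
  have hlabr : (P.DC z t).lab r = P.rk (P.pos z) + 1 := by
    show P.rk r + (if t < r then 1 else 0) = _
    rw [if_neg H.rt.not_gt, hrkr, add_zero]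
  have hm1 : ∀ b, m1 (P.DC z t) l r b = P.nin z b := by
    intro b
    unfold m1
    rw [hlabl, hlabr]
    show P.cc z b _ - P.cc z b _ = _
    rw [cc_rk, cc_rk1]; ring
  -- the phase at `l`
  have f0 : fO true (r :: l :: M) true r = l := by
    have := f_next hC.cl true (k := 0) (by simp)
    simpa [pgk, g] using this
  have i0 := hC.inc true r (by simp)
  rw [f0, if_neg hlr.not_gt] at i0
  have hE0 : E l - E r = (P.DC z t).M - P.nin z true := by
    have e1 := hm1 true
    unfold m1 at e1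
    simp only [sg, if_true] at i0
    linarith
  have hMv : (P.DC z t).M = ((h : ℝ) + 1 / 2) / 2 := rfl
  have hnin := P.nin_add z
  -- the list has more than two points
  have hM : M ≠ [] := by
    rintro rfl
    have f1 : fO true [r, l] false r = l := by
      show lOf [r, l] r = l
      unfold lOf
      simp [lI, g]
    have i1 := hC.inc false r (by simp)
    rw [f1, if_neg hlr.not_gt] at i1
    have e2 := hm1 false
    unfold m1 at e2
    simp only [sg, Bool.false_eq_true, if_false] at i1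
    linarith
  obtain ⟨Q, B, rfl⟩ : ∃ Q B, M = Q :: B := by
    cases M with
    | nil => exact absurd rfl hM
    | cons a M => exact ⟨a, M, rfl⟩
  obtain ⟨n, hn1, hn2⟩ := exists_between H.zr
  obtain ⟨t', ht1, ht2⟩ := exists_between hn2
  obtain ⟨q, hq1, hq2⟩ := exists_between ht2
  have hnq : n < q := ht1.trans hq1
  have hrk : ∀ x, P.pos z < x → x < r → P.rk x = P.rk (P.pos z) + 1 := by
    intro x h1 h2
    have h3 := (P.rk_lt_iff z x).2 h1
    have h4 := P.rk_mono h2.le
    omega
  have hrkn := hrk n hn1 hn2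
  have hrkt' := hrk t' (hn1.trans ht1) ht2
  have hrkq := hrk q (hn1.trans hnq) hq2
  have hln : l < n := H.lz.trans hn1
  -- the twist data
  have hTw : Tw (P.DC z t) (P.DC z t') r l n q Q B E := by
    refine ⟨hC, rfl, rfl, hln, hnq, hq2, ?_, ?_, ?_, ?_⟩
    · exact fun w hw hh => H.emp w hw ⟨hh.1, (hh.2.trans H.rt).le⟩
    · intro x hx
      show P.rk x + (if t' < x then 1 else 0) = P.rk x + (if t < x then 1 else 0)
      rw [List.mem_cons] at hx
      rcases hx with rfl | hx
      · rw [if_neg (hln.trans ht1).not_gt, if_neg (hlr.trans H.rt).not_gt]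
      · have h1 := H.emp x hx
        by_cases hxl : l < x
        · have hxt : t < x := not_le.1 fun h2 => h1 ⟨hxl, h2⟩
          rw [if_pos hxt, if_pos ((ht2.trans H.rt).trans hxt)]
        · have hxl' := not_lt.1 hxl
          rw [if_neg (hxl'.trans_lt (hln.trans ht1)).not_gt,
            if_neg (hxl'.trans_lt (hlr.trans H.rt)).not_gt]
    · rw [hlabr]
      show P.rk n + (if t' < n then 1 else 0) = _
      rw [if_neg ht1.not_gt, hrkn, add_zero]
    · show P.rk q + (if t' < q then 1 else 0) = P.rk r + (if t' < r then 1 else 0)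
      rw [if_pos hq1, if_pos ht2, hrkq, hrkr]
  have hlabr' : (P.DC z t').lab r = P.rk (P.pos z) + 2 := by
    show P.rk r + (if t' < r then 1 else 0) = _
    rw [if_pos ht2, hrkr]
  have hm2 : ∀ b, m2 (P.DC z t) (P.DC z t') r b = P.mu z b - P.nin z b := by
    intro b
    unfold m2
    rw [hlabr, hlabr']
    show P.cc z b _ - P.cc z b _ = _
    rw [cc_rk1, cc_rk2]; ring
  have hI := hTw.crvI
  have h1 := hTw.crv1
  set E1 := twE (P.DC z t) (P.DC z t') r l n q E with hE1
  -- insertion of the pair without change of the value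
  have hnL : n ∉ [r] ++ l :: Q :: B := hTw.nL
  have hqL : q ∉ [r] ++ l :: Q :: B := hTw.qL
  have hlab : (P.DC z t).lab n = (P.DC z t).lab q := by
    show P.rk n + (if t < n then 1 else 0) = P.rk q + (if t < q then 1 else 0)
    rw [hrkn, hrkq, if_neg (hn2.trans H.rt).not_gt, if_neg (hq2.trans H.rt).not_gt]
  have hC' : Crv (P.DC z t) true ([r] ++ l :: Q :: B) E := hC
  have g1 := hC'.ins hnL hqL hTw.next hlab
  have g2 := T.ins_val hC' hnL hqL hTw.next hlab
  set E' := insE (P.DC z t) (pgk true [r].length) l n q E with hE'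
  have g1' : Crv (P.DC z t) true (r :: l :: n :: q :: Q :: B) E' := g1
  have hpk : pgk true [r].length = false := by simp [pgk]
  have hEL : ∀ x ∈ r :: l :: Q :: B, E' x = E x := fun x hx => insE_eq _ hnL hqL hx
  have hEn : E' n = E l - P.nin z false + (P.DC z t).M := by
    rw [hE']
    unfold insE
    rw [if_pos rfl, hpk]
    have e1 := hm1 false
    unfold m1 at e1
    have e2 : (P.DC z t).lab n = (P.DC z t).lab r := by
      rw [hlabr]
      show P.rk n + (if t < n then 1 else 0) = _
      rw [if_neg (hn2.trans H.rt).not_gt, hrkn, add_zero]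
    simp only [sg, Bool.false_eq_true, if_false]
    rw [e2, if_pos hln]
    linarith
  have hEq : E' q = E l - P.nin z false := by
    rw [hE']
    unfold insE
    rw [if_neg hnq.ne', if_pos rfl, hpk]
    have e1 := hm1 false
    unfold m1 at e1
    have e2 : (P.DC z t).lab n = (P.DC z t).lab r := by
      rw [hlabr]
      show P.rk n + (if t < n then 1 else 0) = _
      rw [if_neg (hn2.trans H.rt).not_gt, hrkn, add_zero]
    simp only [sg, Bool.false_eq_true, if_false]
    rw [e2]
    linarith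
  have hk := P.mu_add z
  have hk1 := P.nin_le z true
  have hk2 := P.nin_le z false
  have v1n : E1 n = E l - 1 / 2 - P.nin z false + (P.DC z t).M := by
    rw [hE1]; unfold twE
    rw [if_pos rfl, hm1, hm2, hm2]; linarith
  have v1q : E1 q = E l - P.nin z false - (P.mu z false - P.nin z false) := by
    rw [hE1]; unfold twE
    rw [if_neg hnq.ne', if_pos rfl, hm1, hm2]
  have v1l : E1 l = E l - 1 / 2 := by
    rw [hE1]; unfold twE
    rw [if_neg hln.ne, if_neg (hln.trans hnq).ne, if_pos rfl, hm2, hm2]; linarith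
  have v1r : E1 r = E r - (P.mu z false - P.nin z false) := by
    rw [hE1]; unfold twE
    rw [if_neg (hnq.trans hq2).ne', if_neg hq2.ne', if_neg hlr.ne', if_pos rfl, hm2]
  have v1x : ∀ x ∈ r :: l :: Q :: B, x ≠ r → x ≠ l → E1 x = E x := by
    intro x hx hxr hxl
    rw [hE1]; unfold twE
    rw [if_neg (fun hh : x = n => hnL (hh ▸ hx)), if_neg (fun hh : x = q => hqL (hh ▸ hx)),
      if_neg hxl, if_neg hxr]
  have hcmp : ∀ x ∈ r :: l :: n :: q :: Q :: B, E1 x ≤ E' x ∧ E' x ≤ E1 x + 1 / 2 := by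
    intro x hx
    have hx' : x = n ∨ x = q ∨ x ∈ r :: l :: Q :: B := by
      simp only [List.mem_cons] at hx ⊢
      tauto
    rcases hx' with rfl | rfl | hx'
    · rw [v1n, hEn]; constructor <;> linarith
    · rw [v1q, hEq]; constructor <;> linarith
    · rw [hEL x hx']
      by_cases hxr : x = r
      · rw [hxr, v1r]; constructor <;> linarith
      by_cases hxl : x = l
      · rw [hxl, v1l]; constructor <;> linarith
      rw [v1x x hx' hxr hxl]; constructor <;> linarith
  have k1 : T.val true (r :: l :: n :: q :: Q :: B) E1 ≤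
      T.val true (r :: l :: n :: q :: Q :: B) E' :=
    T.val_mono hI g1' fun x hx => (hcmp x hx).1
  have k2 : T.val true (r :: l :: n :: q :: Q :: B) E' ≤
      T.val true (r :: l :: n :: q :: Q :: B) E1 + 1 / 2 :=
    T.val_mono_add g1' hI (1 / 2) fun x hx => (hcmp x hx).2
  have k3 : T.val true (r :: l :: n :: q :: Q :: B) E' = T.val true (r :: l :: Q :: B) E := g2
  have k4 : T.val true (n :: q :: Q :: B ++ [r, l]) E1 =
      T.val true (r :: l :: n :: q :: Q :: B) E1 :=
    (T.crv_rot_even hI (k := 2) even_two).2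
  refine ⟨T.val true (n :: (q :: Q :: B ++ [r, l])) E1 - E1 n,
    ⟨t', n, l, q :: Q :: B ++ [r, l], E1, h1, ⟨?_, H.lz, hn1, ht1, ?_, H.rkl, hrkt'⟩, ?_, rfl⟩,
    ?_, ?_⟩
  · right
    rw [show q :: Q :: B ++ [r, l] = (q :: Q :: B ++ [r]) ++ [l] by simp,
      List.getLast?_concat]
  · intro w hw'
    rw [List.cons_append, List.mem_cons, List.mem_append] at hw'
    rcases hw' with rfl | hw' | hw'
    · exact fun hh => absurd hq1 (not_lt.2 hh.2)
    · exact fun hh => H.emp w hw' ⟨hh.1, hh.2.trans (ht2.trans H.rt).le⟩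
    · simp only [List.mem_cons, List.not_mem_nil, or_false] at hw'
      rcases hw' with rfl | rfl
      · exact fun hh => absurd ht2 (not_lt.2 hh.2)
      · exact fun hh => lt_irrefl _ hh.1
  · -- the word
    have hev : (Q :: B).length % 2 = 0 := by
      have := hC.cl.even
      simp only [List.length_cons] at this ⊢
      omega
    have hfl : Pst.fl (Q :: B).length false = false := by
      obtain ⟨k, hk⟩ : Even (Q :: B).length := Nat.even_iff.2 hev
      rw [hk, Pst.fl_add, Pst.fl_fl]
    have hw : Pst.cl true (P.G0.gap l) * Pst.wd P.G0 false (Q :: B) =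
        R * FreeGroup.of (P.G0.lt z) := H.word
    rw [gap_lt H.rkl] at hw
    have hwd : Pst.wd P.G0 false (Q :: B) = (FreeGroup.of (P.G0.lt z))⁻¹ * R *
        FreeGroup.of (P.G0.lt z) := by
      rw [mul_assoc, ← hw]
      simp [Pst.cl]
    show Pst.cl true (P.G0.gap q) * Pst.wd P.G0 (!true) (Q :: B ++ [r, l]) = _
    rw [show (!true) = false from rfl, Pst.wd_append, hfl, hwd, gap_rt hrkq]
    show Pst.cl true (P.G0.rt z) * (_ * (Pst.cl false (P.G0.gap r) *
      (Pst.cl (!false) (P.G0.gap l) * 1))) = _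
    rw [gap_rt hrkr, gap_lt H.rkl]
    simp only [Pst.cl, OData.T0, if_true, if_false, Bool.false_eq_true, Bool.not_false]
    group
  · have e9 : T.val true (n :: (q :: Q :: B ++ [r, l])) E1 =
        T.val true (r :: l :: n :: q :: Q :: B) E1 := k4
    rw [e9, H.val, v1n]
    linarith
  · have e9 : T.val true (n :: (q :: Q :: B ++ [r, l])) E1 =
        T.val true (r :: l :: n :: q :: Q :: B) E1 := k4
    rw [e9, H.val, v1n]
    linarith

/-- **The twist at any leaf**, with an error in `[-1/2, 0]`. -/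
theorem VT.step {T : VApi ℝ} {z : Fin (2 * h + 1)} {R : FreeGroup ℕ} {v : ℝ} (hv : VT P T z R v) :
    ∃ v', VT P T z ((P.T0 z)⁻¹ * R * P.T0 z) v' ∧
      0 ≤ (-1) * (v' - (v + (-1) * ((h : ℝ) - 1 / 2))) ∧
      (-1) * (v' - (v + (-1) * ((h : ℝ) - 1 / 2))) ≤ 1 / 2 := by
  obtain ⟨t, r, l, M, E, hL⟩ := hv.low
  exact hL.twist

end Vale.Agent.P040.H303
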