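import Vale.Agent.P040.H84.Ins
import Vale.Agent.P040.H84.Rot2
import Vale.Agent.P040.H251.SelInst

/-!
# P040, odd layer: one full twist at a cut leaf

The curve `r :: l :: Q :: B` passes between the two halves of a leaf, at the point `r` (`l` is its
neighbour on the other side of the first half).  After one full twist of the leaf the curve is
`n :: q :: Q :: B ++ [r, l]` with `l < n < q < r`, `n` is now the point between the two halves.
-/

set_option autoImplicit false
set_option linter.unusedSectionVars false

namespace Vale.Agent.P040.H303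

open P040H251 Vale.Agent.P040.H906

variable {α : Type*} [LinearOrder α] [Inhabited α]

/-- the data of one twist -/
structure Tw (D D1 : Dat α) (r l n q Q : α) (B : List α) (E : α → ℝ) : Prop where
  crv : Crv D true (r :: l :: Q :: B) E
  hC : D1.C = D.C
  hM : D1.M = D.M
  ln : l < n
  nq : n < q
  qr : q < r
  emp : ∀ w ∈ Q :: B, ¬ (l < w ∧ w < r)
  lab : ∀ x ∈ l :: Q :: B, D1.lab x = D.lab x
  labn : D1.lab n = D.lab r
  labq : D1.lab q = D1.lab r

section

/-- mass of page `b` of the first half -/
def m1 (D : Dat α) (l r : α) (b : Bool) : ℝ := D.C b (D.lab r) - D.C b (D.lab l)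

/-- mass of page `b` of the second half -/
def m2 (D D1 : Dat α) (r : α) (b : Bool) : ℝ := D.C b (D1.lab r) - D.C b (D.lab r)

/-- the new phases -/
noncomputable def twE (D D1 : Dat α) (r l n q : α) (E : α → ℝ) : α → ℝ := fun x =>
  if x = n then E l - (m2 D D1 r true + m2 D D1 r false) - m1 D l r false + D.M
  else if x = q then E l - m1 D l r false - m2 D D1 r false
  else if x = l then E l - (m2 D D1 r true + m2 D D1 r false)
  else if x = r then E r - m2 D D1 r false
  else E x

end

variable {D D1 : Dat α} {r l n q Q : α} {B : List α} {E : α → ℝ}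

namespace Tw

variable (T : Tw D D1 r l n q Q B E)

include T

theorem lr : l < r := T.ln.trans (T.nq.trans T.qr)

theorem nL : n ∉ [r] ++ l :: Q :: B := by
  intro hh
  simp only [List.cons_append, List.nil_append, List.mem_cons] at hh
  rcases hh with rfl | rfl | hh
  · exact lt_asymm T.nq T.qr
  · exact lt_irrefl _ T.ln
  · exact T.emp n (by simpa using hh) ⟨T.ln, T.nq.trans T.qr⟩

theorem qL : q ∉ [r] ++ l :: Q :: B := by
  intro hh
  simp only [List.cons_append, List.nil_append, List.mem_cons] at hh
  rcases hh with rfl | rfl | hh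
  · exact lt_irrefl _ T.qr
  · exact lt_asymm T.ln T.nq
  · exact T.emp q (by simpa using hh) ⟨T.ln.trans T.nq, T.qr⟩

theorem next : Next ([r] ++ l :: Q :: B) l n q := by
  refine Or.inr ⟨T.ln, T.nq, ?_⟩
  intro w hw hh
  simp only [List.cons_append, List.nil_append] at hw
  rw [List.mem_cons, List.mem_cons] at hw
  rcases hw with rfl | rfl | hw
  · exact lt_asymm hh.2 T.qr
  · exact lt_irrefl _ hh.1
  · exact T.emp w hw ⟨hh.1, hh.2.trans T.qr⟩

/-- the list with the inserted pair -/
theorem clI : CL (r :: l :: n :: q :: Q :: B) := by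
  have h : CL ([r] ++ l :: Q :: B) := T.crv.cl
  exact h.ins T.nL T.qL T.nq.ne

theorem plI : Planar true (r :: l :: n :: q :: Q :: B) := by
  have h : CL ([r] ++ l :: Q :: B) := T.crv.cl
  exact ins_planar (s := true) h T.crv.pl T.nL T.qL T.next

theorem fI : (fO true (r :: l :: Q :: B) false l = Q) ∧
    (fO true (r :: l :: Q :: B) false Q = l) ∧
    (fO true (r :: l :: n :: q :: Q :: B) false l = n) ∧
    (fO true (r :: l :: n :: q :: Q :: B) false n = l) ∧
    (fO true (r :: l :: n :: q :: Q :: B) false q = Q) ∧
    (fO true (r :: l :: n :: q :: Q :: B) false Q = q) ∧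
    (fO true (r :: l :: n :: q :: Q :: B) true n = q) ∧
    (fO true (r :: l :: n :: q :: Q :: B) true q = n) ∧
    (∀ x ∈ r :: l :: Q :: B, fO true (r :: l :: n :: q :: Q :: B) true x =
      fO true (r :: l :: Q :: B) true x) ∧
    (∀ x ∈ r :: l :: Q :: B, x ≠ l → x ≠ Q →
      fO true (r :: l :: n :: q :: Q :: B) false x = fO true (r :: l :: Q :: B) false x) := by
  have h : CL ([r] ++ l :: Q :: B) := T.crv.cl
  exact ins_f (s := true) h T.nL T.qL T.nq.ne

theorem f_rl : fO true (r :: l :: Q :: B) true r = l := by
  have := f_next T.crv.cl true (k := 0) (by simp)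
  simpa [pgk, g] using this

theorem f_lr : fO true (r :: l :: Q :: B) true l = r := by
  have := f_f T.crv.cl true true (x := r) (by simp)
  rwa [T.f_rl] at this

/-- the phases, on the list with the inserted pair -/
theorem inc (b : Bool) {x : α} (hx : x ∈ r :: l :: n :: q :: Q :: B) :
    sg b * (twE D D1 r l n q E (fO true (r :: l :: n :: q :: Q :: B) b x) -
      twE D D1 r l n q E x) =
    D1.C b (D1.lab (fO true (r :: l :: n :: q :: Q :: B) b x)) - D1.C b (D1.lab x) +
      (if x < fO true (r :: l :: n :: q :: Q :: B) b x then - D1.M else D1.M) := by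
  obtain ⟨e1, e2, e3, e4, e5, e6, e7, e8, e9, e10⟩ := T.fI
  have f1 := T.f_rl
  have f2 := T.f_lr
  have hnL := T.nL
  have hqL := T.qL
  simp only [List.cons_append, List.nil_append] at hnL hqL
  have hlr := T.lr
  have hinc := T.crv.inc
  have hmem := fun b x (hx : x ∈ r :: l :: Q :: B) => f_mem T.crv.cl true b hx
  have hinv := fun b x (hx : x ∈ r :: l :: Q :: B) => f_f T.crv.cl true b hx
  have hfne := fun b x (hx : x ∈ r :: l :: Q :: B) => f_ne T.crv.cl true b hx
  have hlab := T.lab
  have hmemL : ∀ x ∈ r :: l :: n :: q :: Q :: B, x = n ∨ x = q ∨ x ∈ r :: l :: Q :: B := by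
    intro x hx
    simp only [List.mem_cons] at hx ⊢
    tauto
  have hrL : r ∈ r :: l :: Q :: B := by simp
  have hlL : l ∈ r :: l :: Q :: B := by simp
  have hQL : Q ∈ r :: l :: Q :: B := by simp
  have hnd := T.crv.cl.nodup
  have hrest : ∀ x ∈ r :: l :: Q :: B, x ≠ r → x ∈ l :: Q :: B := by
    intro x hx hxr
    rw [List.mem_cons] at hx
    exact hx.resolve_left hxr
  have hQr : Q ≠ r := by
    intro hh
    rw [List.nodup_cons] at hnd
    exact hnd.1 (by rw [← hh]; simp)
  have hQl : Q ≠ l := by
    intro hh
    rw [List.nodup_cons, List.nodup_cons] at hnd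
    exact hnd.2.1 (by rw [← hh]; simp)
  have hQcmp : l < Q ↔ q < Q := by
    have hq := T.emp Q (by simp)
    constructor
    · intro hh
      refine T.qr.trans (lt_of_le_of_ne (not_lt.1 fun h1 => hq ⟨hh, h1⟩) hQr.symm)
    · intro hh
      exact (T.ln.trans T.nq).trans hh
  -- values of the new phase
  have vn : twE D D1 r l n q E n =
      E l - (m2 D D1 r true + m2 D D1 r false) - m1 D l r false + D.M := by
    unfold twE; rw [if_pos rfl]
  have vq : twE D D1 r l n q E q = E l - m1 D l r false - m2 D D1 r false := by
    unfold twE; rw [if_neg T.nq.ne', if_pos rfl]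
  have vl : twE D D1 r l n q E l = E l - (m2 D D1 r true + m2 D D1 r false) := by
    unfold twE; rw [if_neg T.ln.ne, if_neg (T.ln.trans T.nq).ne, if_pos rfl]
  have vr : twE D D1 r l n q E r = E r - m2 D D1 r false := by
    unfold twE
    rw [if_neg (T.nq.trans T.qr).ne', if_neg T.qr.ne', if_neg hlr.ne', if_pos rfl]
  have vx : ∀ x ∈ r :: l :: Q :: B, x ≠ r → x ≠ l → twE D D1 r l n q E x = E x := by
    intro x hx hxr hxl
    unfold twE
    rw [if_neg (fun hh : x = n => hnL (hh ▸ hx)), if_neg (fun hh : x = q => hqL (hh ▸ hx)),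
      if_neg hxl, if_neg hxr]
  have hM := T.hM
  have hC := T.hC
  have labn := T.labn
  have labq := T.labq
  have labl := hlab l (by simp)
  have labQ := hlab Q (by simp)
  -- old increments
  have i1 := hinc true r hrL
  rw [f1, if_neg hlr.not_gt] at i1
  have i2 := hinc false l hlL
  rw [e1] at i2
  -- the three special pairs
  have pnq : sg true * (twE D D1 r l n q E q - twE D D1 r l n q E n) =
      D1.C true (D1.lab q) - D1.C true (D1.lab n) + (if n < q then - D1.M else D1.M) := by
    rw [vn, vq, if_pos T.nq, hC, hM, labn, labq]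
    simp only [sg, m1, m2, if_true]
    ring
  have pln : sg false * (twE D D1 r l n q E n - twE D D1 r l n q E l) =
      D1.C false (D1.lab n) - D1.C false (D1.lab l) + (if l < n then - D1.M else D1.M) := by
    rw [vn, vl, if_pos T.ln, hC, hM, labn, labl]
    simp only [sg, m1, m2, Bool.false_eq_true, if_false]
    ring
  have pqQ : sg false * (twE D D1 r l n q E Q - twE D D1 r l n q E q) =
      D1.C false (D1.lab Q) - D1.C false (D1.lab q) + (if q < Q then - D1.M else D1.M) := by
    rw [vq, vx Q hQL hQr hQl, hC, hM, labq, labQ]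
    have h2 : (if q < Q then - D.M else D.M) = (if l < Q then - D.M else D.M) := by
      by_cases hc : l < Q
      · rw [if_pos hc, if_pos (hQcmp.1 hc)]
      · rw [if_neg hc, if_neg fun hh => hc (hQcmp.2 hh)]
    rw [h2]
    simp only [sg, m1, m2, Bool.false_eq_true, if_false] at i2 ⊢
    linarith
  have plr : sg true * (twE D D1 r l n q E r - twE D D1 r l n q E l) =
      D1.C true (D1.lab r) - D1.C true (D1.lab l) + (if l < r then - D1.M else D1.M) := by
    rw [vr, vl, if_pos hlr, hC, hM, labl]
    simp only [sg, m2, if_true] at i1 ⊢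
    linarith
  have hlrne : l ≠ r := hlr.ne
  rcases Cfg.bool_cases true b with rfl | rfl
  · rcases hmemL x hx with rfl | rfl | hxL
    · rw [e7]; exact pnq
    · rw [e8]; exact inc_symm T.nq.ne pnq
    · rw [e9 x hxL]
      by_cases hxr : x = r
      · rw [hxr, f1]; exact inc_symm hlrne plr
      by_cases hxl : x = l
      · rw [hxl, f2]; exact plr
      have hy := hmem true x hxL
      have hyr : fO true (r :: l :: Q :: B) true x ≠ r := by
        intro hh
        apply hxl
        rw [← hinv true x hxL, hh, f1]
      have hyl : fO true (r :: l :: Q :: B) true x ≠ l := by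
        intro hh
        apply hxr
        rw [← hinv true x hxL, hh, f2]
      rw [vx _ hy hyr hyl, vx x hxL hxr hxl, hC, hM, hlab _ (hrest _ hy hyr),
        hlab x (hrest x hxL hxr)]
      exact hinc true x hxL
  · show sg false * (twE D D1 r l n q E (fO true (r :: l :: n :: q :: Q :: B) false x) -
      twE D D1 r l n q E x) =
      D1.C false (D1.lab (fO true (r :: l :: n :: q :: Q :: B) false x)) - D1.C false (D1.lab x) +
      (if x < fO true (r :: l :: n :: q :: Q :: B) false x then - D1.M else D1.M)
    rcases hmemL x hx with rfl | rfl | hxL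
    · rw [e4]; exact inc_symm T.ln.ne pln
    · rw [e5]; exact pqQ
    · by_cases hxl : x = l
      · rw [hxl, e3]; exact pln
      by_cases hxQ : x = Q
      · rw [hxQ, e6]
        refine inc_symm ?_ pqQ
        intro hh
        exact hqL (hh ▸ hQL)
      rw [e10 x hxL hxl hxQ]
      have hy := hmem false x hxL
      have hyl : fO true (r :: l :: Q :: B) false x ≠ l := by
        intro hh
        apply hxQ
        rw [← hinv false x hxL, hh, e1]
      have i3 := hinc false x hxL
      by_cases hxr : x = r
      · subst hxr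
        have hyr := hfne false x hxL
        rw [vx _ hy hyr hyl, vr, hC, hM, hlab _ (hrest _ hy hyr)]
        simp only [sg, m2, Bool.false_eq_true, if_false] at i3 ⊢
        linarith
      · by_cases hyr : fO true (r :: l :: Q :: B) false x = r
        · rw [hyr] at i3 ⊢
          rw [vx x hxL hxr hxl, vr, hC, hM, hlab x (hrest x hxL hxr)]
          simp only [sg, m2, Bool.false_eq_true, if_false] at i3 ⊢
          linarith
        · rw [vx _ hy hyr hyl, vx x hxL hxr hxl, hC, hM, hlab _ (hrest _ hy hyr),
            hlab x (hrest x hxL hxr)]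
          exact i3

theorem crvI : Crv D1 true (r :: l :: n :: q :: Q :: B) (twE D D1 r l n q E) :=
  ⟨T.clI, T.plI, fun b _ hx => T.inc b hx⟩

/-- **The twisted curve.** -/
theorem crv1 : Crv D1 true (n :: q :: Q :: B ++ [r, l]) (twE D D1 r l n q E) :=
  (rot2 selApi T.crvI).1

end Tw

end Vale.Agent.P040.H303
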